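import Vale.Agent.P181.R2.H572.Fam

set_option autoImplicit false

namespace Vale.Agent.P181.FR

/-- ROW W7. -/
theorem family {m i : ℕ} (hi : 3 ≤ i) (him : i ≤ m) : ∃ (N : ℕ) (P : Fin (2 * i - 1) → Fin m → ℂ),
    ∀ c h : ℕ, N * (h + 1) ≤ c →
    ∃ G : Fin h → Fin h → ((Fin (2 * i - 1 + 1) → Fin m → ℂ) → ℂ),
      (∀ r k, G r k ∈ MP (2 * i - 1 + 1) m (2 * c)) ∧
      (∀ r k (σ : Equiv.Perm (Fin (2 * i - 1 + 1))) p, G r k (fun j => p (σ j)) = G r k p) ∧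
      (∀ r k, HWF (2 * i - 1 + 1) m ((4 * c) • om m i) (G r k)) ∧
      (∀ r k p (u v : Fin (2 * i - 1 + 1)), u ≠ v → p u = p v → G r k p = 0) ∧
      LinearIndependent ℂ (fun rk : Fin h × Fin h => fun q : Fin m → ℂ =>
        G rk.1 rk.2 (Fin.snoc (α := fun _ => Fin m → ℂ) P q)) :=
  H572.family hi him

end Vale.Agent.P181.FR
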